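import Vale.Agent.Lib.P047F.I.Four
import Vale.Agent.Lib.P047F.IC.Main

/-!
# P047 Part I: assembly (Part I from I.A (a) and I.C)
-/

open Finset Filter

namespace P047F

theorem ev_mono_eq {ι : Type} [Fintype ι] [DecidableEq ι] {m : ℕ} (c : Finset ι → ℝ)
    (hc : ∀ S, m < S.card → c S = 0) (x : ι → Bool) :
    ev (monoA ι m) (fun S => c S.1) x = ∑ S : Finset ι, c S * (mono S x : ℝ) := by
  unfold ev monoA
  rw [← sum_Idx (m := m) (fun S => c S * (mono S x : ℝ))
    (fun S hS => by rw [hc S hS, zero_mul])]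
  refine Finset.sum_congr rfl fun S _ => ?_
  ring

/-- extension by zero -/
noncomputable def ext0 {ι : Type} {m : ℕ} (c : Idx ι m → ℝ) (S : Finset ι) : ℝ :=
  if h : S.card ≤ m then c ⟨S, h⟩ else 0

theorem ext0_zero {ι : Type} {m : ℕ} (c : Idx ι m → ℝ) (S : Finset ι) (h : m < S.card) :
    ext0 c S = 0 := dif_neg (not_le.2 h)

theorem ext0_val {ι : Type} {m : ℕ} (c : Idx ι m → ℝ) : (fun S : Idx ι m => ext0 c S.1) = c := by
  funext S
  exact dif_pos S.2

theorem ev_eq_ext {ι : Type} [Fintype ι] [DecidableEq ι] {m : ℕ} (c : Idx ι m → ℝ)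
    (x : ι → Bool) : ev (monoA ι m) c x = ∑ S : Finset ι, ext0 c S * (mono S x : ℝ) := by
  have h := ev_mono_eq (ext0 c) (ext0_zero c) x
  rw [ext0_val] at h
  exact h

theorem degLe_sum {ι κ : Type} [Fintype ι] [DecidableEq ι] {m : ℕ} (s : Finset κ)
    (f : κ → (ι → Bool) → ℝ) (h : ∀ k ∈ s, DegLe m (f k)) :
    DegLe m (fun x => ∑ k ∈ s, f k x) := by
  classical
  induction s using Finset.induction with
  | empty =>
    intro T hT
    simp
  | insert a s ha ih =>
    have h1 := DegLe.add (h a (Finset.mem_insert_self _ _))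
      (ih fun k hk => h k (Finset.mem_insert_of_mem hk))
    intro T hT
    have h2 := h1 T hT
    rw [← h2]
    refine Finset.sum_congr rfl fun x _ => ?_
    beta_reduce
    rw [Finset.sum_insert ha]

theorem degLe_ev {ι : Type} [Fintype ι] [DecidableEq ι] {m : ℕ} (c : Idx ι m → ℝ) :
    DegLe m (ev (monoA ι m) c) := by
  have h : ev (monoA ι m) c = fun x => ∑ S : Idx ι m, c S * (mono S.1 x : ℝ) := by
    funext x
    unfold ev monoA
    refine Finset.sum_congr rfl fun S _ => ?_
    ring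
  rw [h]
  exact degLe_sum _ _ fun S _ => DegLe.smul (c S) (degLe_mono S.1 S.2)

theorem exists_ev {ι : Type} [Fintype ι] [DecidableEq ι] {m : ℕ} {f : (ι → Bool) → ℝ}
    (hf : DegLe m f) : ∃ c : Idx ι m → ℝ, ∀ x, f x = ev (monoA ι m) c x := by
  obtain ⟨c, hc, h⟩ := exists_coeff hf
  refine ⟨fun S => c S.1, fun x => ?_⟩
  rw [ev_mono_eq c hc, h x]

theorem exists_ev_int {ι : Type} [Fintype ι] [DecidableEq ι] {m : ℕ} {w : (ι → Bool) → ℤ}
    (hf : DegLe m (fun x => (w x : ℝ))) :
    ∃ k : Idx ι m → ℤ, ∀ x, (w x : ℝ) = ev (monoA ι m) (fun S => (k S : ℝ)) x := by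
  obtain ⟨c, hc, h⟩ := exists_coeff hf
  choose k hk using coeff_int h
  refine ⟨fun S => k S.1, fun x => ?_⟩
  rw [h x, ← ev_mono_eq c hc]
  congr 1
  funext S
  exact hk S.1

theorem ev_sub3 {Q J : Type} [Fintype J] (A : Q → J → ℤ) (c c0 k : J → ℝ) (x : Q) :
    ev A (fun j => c j - c0 j - k j) x = ev A c x - ev A c0 x - ev A k x := by
  unfold ev
  rw [← Finset.sum_sub_distrib, ← Finset.sum_sub_distrib]
  refine Finset.sum_congr rfl fun j _ => ?_
  ring

/-- the exponent of the net is small -/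
theorem ev_exponent (C : ℝ) : ∀ᶠ n : ℕ in atTop,
    C * (n : ℝ) ^ 2 * GG n (mm n) + 8 * (Real.exp (1 / 1000 * n) * GG n (mm n)) ≤
      Real.exp (-(n : ℝ) / 1000) / 2 := by
  filter_upwards [ev_poly (4 * C) (a := 34 / 10000) (by norm_num),
    ev_large (Real.log 32) (a := 24 / 10000) (by norm_num)] with n h1 h2
  have hG := GG_le n
  have hG0 := GG_pos n (mm n)
  have e0 := Real.exp_pos (-(n : ℝ) / 1000)
  have e1 : C * (n : ℝ) ^ 2 * GG n (mm n) ≤ Real.exp (-(n : ℝ) / 1000) / 4 := by
    calc C * (n : ℝ) ^ 2 * GG n (mm n) = (4 * C * (n : ℝ) ^ 2) * GG n (mm n) / 4 := by ring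
      _ ≤ Real.exp (34 / 10000 * n) * GG n (mm n) / 4 := by gcongr
      _ ≤ Real.exp (34 / 10000 * n) * Real.exp (-(11 / 2500 * (n : ℝ))) / 4 := by gcongr
      _ = Real.exp (-(n : ℝ) / 1000) / 4 := by
          rw [← Real.exp_add]
          congr 2
          ring
  have e2 : 8 * (Real.exp (1 / 1000 * n) * GG n (mm n)) ≤ Real.exp (-(n : ℝ) / 1000) / 4 := by
    have e3 : (32 : ℝ) ≤ Real.exp (24 / 10000 * n) := by
      calc (32 : ℝ) = Real.exp (Real.log 32) := (Real.exp_log (by norm_num)).symm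
        _ ≤ _ := Real.exp_le_exp.2 h2
    calc 8 * (Real.exp (1 / 1000 * n) * GG n (mm n))
        = 32 * (Real.exp (1 / 1000 * n) * GG n (mm n)) / 4 := by ring
      _ ≤ Real.exp (24 / 10000 * n) * (Real.exp (1 / 1000 * n) *
          Real.exp (-(11 / 2500 * (n : ℝ)))) / 4 := by gcongr
      _ = Real.exp (-(n : ℝ) / 1000) / 4 := by
          rw [← Real.exp_add, ← Real.exp_add]
          congr 2
          ring
  linarith

theorem partI (hA : PartIA_a) (hC : PartIC) : PartI := by
  obtain ⟨C, hC1, hA'⟩ := hA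
  filter_upwards [hC (1 / 1000) (by norm_num), ev_exponent C, eventually_ge_atTop 8] with n h1 h2 h3
  have hG0 := GG_pos n (mm n)
  have hmn : mm n ≤ n := by unfold mm; omega
  have hδ : GG n (mm n) ≤ Real.exp (-(n : ℝ) / 1000) := by
    refine (GG_le n).trans (Real.exp_le_exp.2 ?_)
    have : (0 : ℝ) ≤ n := Nat.cast_nonneg n
    linarith
  have hδ1 : Real.exp (-(n : ℝ) / 1000) ≤ 1 := by
    rw [Real.exp_le_one_iff]
    have : (0 : ℝ) ≤ n := Nat.cast_nonneg n
    linarith
  have hδ0 := Real.exp_pos (-(n : ℝ) / 1000)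
  refine ⟨?_, ?_, ?_⟩
  · intro c hc
    have h4 := coeff_zero (c := ext0 c) (fun x => by rw [← ev_eq_ext]; exact hc x)
    rw [← ext0_val c]
    funext S
    exact h4 S.1
  · intro c x
    have h4 := lev_GG (degLe_ev c) x
    simp only [Fintype.card_fin] at h4
    refine h4.trans ?_
    exact mul_le_mul_of_nonneg_right hδ (Finset.sum_nonneg fun _ _ => sq_nonneg _)
  · intro M hM
    classical
    obtain ⟨P, hP1, hP2, hP3⟩ := hA' (Fin n) (mm n) (Real.exp (1 / 1000 * n) * GG n (mm n))
      (by simpa using h3) (by simpa using hmn) (by positivity) h1 (max M 1) (le_max_right _ _)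
    simp only [Fintype.card_fin] at hP1
    choose! co hco using fun θ (hθ : θ ∈ P) => exists_ev (hP2 θ hθ)
    refine ⟨P.image co, ?_, ?_⟩
    · have h5 : ((P.image co).card : ℝ) ≤ P.card := by exact_mod_cast Finset.card_image_le
      refine h5.trans ?_
      have h6 : (P.card : ℝ) ≤ Real.exp (Real.exp (-(n : ℝ) / 1000) / 2 * max M 1) := by
        refine hP1.trans (Real.exp_le_exp.2 ?_)
        exact mul_le_mul_of_nonneg_right h2 (le_trans zero_le_one (le_max_right _ _))
      rcases le_total 1 M with h7 | h7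
      · refine h6.trans (Real.exp_le_exp.2 ?_)
        rw [max_eq_left h7]
        nlinarith
      · rw [max_eq_right h7] at h6
        have h8 : (P.card : ℝ) < 2 := by
          refine lt_of_le_of_lt h6 ?_
          have h9 : Real.exp (Real.exp (-(n : ℝ) / 1000) / 2 * 1) ≤ Real.exp (1 / 2) :=
            Real.exp_le_exp.2 (by linarith)
          refine lt_of_le_of_lt h9 ?_
          have h10 : Real.exp (1 / 2) ^ 2 < 2 ^ 2 := by
            rw [← Real.exp_nat_mul]
            norm_num
            have := Real.exp_one_lt_d9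
            linarith
          exact lt_of_pow_lt_pow_left₀ 2 (by norm_num) h10
        have h11 : P.card ≤ 1 := by
          have : P.card < 2 := by exact_mod_cast h8
          omega
        have h12 : (P.card : ℝ) ≤ 1 := by exact_mod_cast h11
        refine h12.trans (Real.one_le_exp ?_)
        positivity
    · intro c hc
      have h5 : ∑ x, dz (ev (monoA (Fin n) (mm n)) c x) ^ 2 ≤ max M 1 := hc.trans (le_max_left _ _)
      obtain ⟨θ', hθ', w, hw, hx⟩ := hP3 _ (degLe_ev c) h5
      obtain ⟨k, hk⟩ := exists_ev_int hw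
      refine ⟨co θ', Finset.mem_image_of_mem _ hθ', k, fun x => ?_⟩
      rw [ev_sub3, ← hco θ' hθ' x, ← hk x]
      exact (hx x).trans (by norm_num)

end P047F
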