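import Vale.Agent.Lib.P047F.I.IDefs
import Vale.Agent.Lib.P047F.IV.R0b

/-!
# P047 Part I: Fourier facts (Parseval, dimension count, integer coefficients)
-/

open Finset

namespace P047F

variable {ι : Type} [Fintype ι] [DecidableEq ι]

theorem parseval (f : (ι → Bool) → ℝ) :
    ∑ x, f x ^ 2 = (∑ T : Finset ι, (∑ y, f y * (chi T y : ℝ)) ^ 2) / 2 ^ Fintype.card ι := by
  obtain ⟨a, ha⟩ : ∃ a : Finset ι → ℝ, a = fun T => ∑ y, f y * ((chi T y : ℤ) : ℝ) := ⟨_, rfl⟩
  have h0 : ∀ T, ∑ y, f y * ((chi T y : ℤ) : ℝ) = a T := fun T => by rw [ha]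
  have h1 : ∑ x, f x ^ 2 = ∑ x, ∑ T : Finset ι,
      f x * (a T / 2 ^ Fintype.card ι * ((chi T x : ℤ) : ℝ)) := by
    refine Finset.sum_congr rfl fun x _ => ?_
    rw [← Finset.mul_sum, sq]
    congr 1
    rw [ha]
    exact r0b_inversion f x
  rw [h1, Finset.sum_comm, Finset.sum_div]
  refine Finset.sum_congr rfl fun T _ => ?_
  rw [h0 T]
  calc ∑ x, f x * (a T / 2 ^ Fintype.card ι * ((chi T x : ℤ) : ℝ))
      = ∑ x, (a T / 2 ^ Fintype.card ι) * (f x * ((chi T x : ℤ) : ℝ)) :=
        Finset.sum_congr rfl fun x _ => by ring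
    _ = (a T / 2 ^ Fintype.card ι) * a T := by rw [← Finset.mul_sum, h0 T]
    _ = _ := by ring

omit [DecidableEq ι] in
/-- the number of sets of size at most `m` is at most `2^n G n m` -/
theorem card_low_le4 (m : ℕ) :
    ((Finset.univ.filter fun T : Finset ι => T.card ≤ m).card : ℝ) ≤
      2 ^ Fintype.card ι * GG (Fintype.card ι) m := by
  have h1 : ∑ T : Finset ι, (1 / 3 : ℝ) ^ T.card = (4 / 3) ^ Fintype.card ι := by
    have := Finset.prod_one_add (s := (Finset.univ : Finset ι)) (f := fun _ => (1 / 3 : ℝ))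
    rw [Finset.powerset_univ] at this
    simp only [Finset.prod_const] at this
    rw [← this, Finset.card_univ]
    norm_num
  have h2 : ((Finset.univ.filter fun T : Finset ι => T.card ≤ m).card : ℝ) * (1 / 3) ^ m ≤
      (4 / 3) ^ Fintype.card ι := by
    rw [← h1, ← nsmul_eq_mul, ← Finset.sum_const]
    calc ∑ _T ∈ Finset.univ.filter fun T : Finset ι => T.card ≤ m, (1 / 3 : ℝ) ^ m
        ≤ ∑ T ∈ Finset.univ.filter fun T : Finset ι => T.card ≤ m, (1 / 3 : ℝ) ^ T.card := by
          refine Finset.sum_le_sum fun T hT => ?_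
          exact pow_le_pow_of_le_one (by norm_num) (by norm_num) (Finset.mem_filter.1 hT).2
      _ ≤ _ := Finset.sum_le_sum_of_subset_of_nonneg (Finset.filter_subset _ _)
          fun T _ _ => by positivity
  unfold GG
  have h3 : (0 : ℝ) < 3 ^ m := by positivity
  have h4 : (1 / 3 : ℝ) ^ m * 3 ^ m = 1 := by rw [← mul_pow]; norm_num
  have h5 : (2 : ℝ) ^ Fintype.card ι * (3 ^ m * (2 / 3) ^ Fintype.card ι) =
      3 ^ m * (4 / 3) ^ Fintype.card ι := by
    have : (4 / 3 : ℝ) ^ Fintype.card ι = 2 ^ Fintype.card ι * (2 / 3) ^ Fintype.card ι := by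
      rw [← mul_pow]; norm_num
    rw [this]; ring
  rw [h5]
  calc ((Finset.univ.filter fun T : Finset ι => T.card ≤ m).card : ℝ)
      = 3 ^ m * (((Finset.univ.filter fun T : Finset ι => T.card ≤ m).card : ℝ) * (1 / 3) ^ m) := by
        rw [show (3 : ℝ) ^ m * (((Finset.univ.filter fun T : Finset ι => T.card ≤ m).card : ℝ) *
          (1 / 3) ^ m) = ((Finset.univ.filter fun T : Finset ι => T.card ≤ m).card : ℝ) *
          ((1 / 3) ^ m * 3 ^ m) by ring, h4, mul_one]
    _ ≤ _ := mul_le_mul_of_nonneg_left h2 h3.le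

/-- functions of degree at most `m` are spread out -/
theorem lev_GG {m : ℕ} {f : (ι → Bool) → ℝ} (hf : DegLe m f) (x : ι → Bool) :
    f x ^ 2 ≤ GG (Fintype.card ι) m * ∑ y, f y ^ 2 := by
  have hp : (0 : ℝ) < 2 ^ Fintype.card ι := by positivity
  obtain ⟨a, ha⟩ : ∃ a : Finset ι → ℝ, a = fun T => ∑ y, f y * ((chi T y : ℤ) : ℝ) := ⟨_, rfl⟩
  have h1 : f x = (∑ T ∈ Finset.univ.filter fun T : Finset ι => T.card ≤ m,
      a T * ((chi T x : ℤ) : ℝ)) / 2 ^ Fintype.card ι := by
    rw [r0b_inversion f x, Finset.sum_div, Finset.sum_filter]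
    refine Finset.sum_congr rfl fun T _ => ?_
    by_cases hT : T.card ≤ m
    · rw [if_pos hT, ha]
      ring
    · rw [if_neg hT, hf T (not_le.1 hT)]
      simp
  have h2 : (∑ T ∈ Finset.univ.filter fun T : Finset ι => T.card ≤ m,
      a T * ((chi T x : ℤ) : ℝ)) ^ 2 ≤
      ((Finset.univ.filter fun T : Finset ι => T.card ≤ m).card : ℝ) * ∑ T : Finset ι, a T ^ 2 := by
    have h3 := Finset.sum_mul_sq_le_sq_mul_sq (Finset.univ.filter fun T : Finset ι => T.card ≤ m)
      a (fun T => ((chi T x : ℤ) : ℝ))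
    have h4 : ∑ T ∈ Finset.univ.filter fun T : Finset ι => T.card ≤ m, ((chi T x : ℤ) : ℝ) ^ 2 =
        ((Finset.univ.filter fun T : Finset ι => T.card ≤ m).card : ℝ) := by
      rw [Finset.sum_congr rfl (g := fun _ => (1 : ℝ))]
      · simp
      · intro T _
        have := r0b_chi_sq T x
        rw [sq]
        exact_mod_cast this
    rw [h4] at h3
    refine h3.trans ?_
    rw [mul_comm]
    refine mul_le_mul_of_nonneg_left ?_ (Nat.cast_nonneg _)
    exact Finset.sum_le_sum_of_subset_of_nonneg (Finset.filter_subset _ _)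
      fun T _ _ => sq_nonneg _
  have h5 : ∑ T : Finset ι, a T ^ 2 = 2 ^ Fintype.card ι * ∑ y, f y ^ 2 := by
    rw [parseval f, ha]
    field_simp
  have h6 := card_low_le4 (ι := ι) m
  have h7 : 0 ≤ ∑ y, f y ^ 2 := Finset.sum_nonneg fun _ _ => sq_nonneg _
  rw [h1, div_pow, div_le_iff₀ (by positivity)]
  refine h2.trans ?_
  rw [h5]
  calc _ ≤ (2 ^ Fintype.card ι * GG (Fintype.card ι) m) *
        (2 ^ Fintype.card ι * ∑ y, f y ^ 2) := mul_le_mul_of_nonneg_right h6 (by positivity)
    _ = _ := by ring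

/-- the indicator of a set -/
def indS (S : Finset ι) : ι → Bool := fun i => decide (i ∈ S)

theorem mono_indS (U S : Finset ι) : mono U (indS S) = if U ⊆ S then 1 else 0 := by
  unfold mono indS
  simp only [decide_eq_true_eq]
  by_cases h : U ⊆ S
  · rw [if_pos h, if_pos (fun i hi => h hi)]
  · rw [if_neg h, if_neg (fun h' => h fun i hi => h' i hi)]

/-- coefficients of integer valued functions are integers -/
theorem coeff_int {c : Finset ι → ℝ} {w : (ι → Bool) → ℤ}
    (h : ∀ x, (w x : ℝ) = ∑ S : Finset ι, c S * (mono S x : ℝ)) (S : Finset ι) :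
    ∃ k : ℤ, c S = k := by
  induction S using Finset.strongInduction with
  | H S ih =>
    choose! k hk using ih
    have h1 := h (indS S)
    have h2 : ∑ U : Finset ι, c U * (mono U (indS S) : ℝ) = ∑ U ∈ S.powerset, c U := by
      rw [← Finset.sum_filter_add_sum_filter_not Finset.univ (fun U => U ⊆ S)]
      have h3 : ∑ U ∈ Finset.univ.filter (fun U => ¬ U ⊆ S), c U * (mono U (indS S) : ℝ) = 0 := by
        refine Finset.sum_eq_zero fun U hU => ?_
        rw [mono_indS, if_neg (Finset.mem_filter.1 hU).2]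
        simp
      rw [h3, add_zero]
      have h4 : Finset.univ.filter (fun U => U ⊆ S) = S.powerset := by
        ext U; simp
      rw [h4]
      refine Finset.sum_congr rfl fun U hU => ?_
      rw [mono_indS, if_pos (Finset.mem_powerset.1 hU)]
      simp
    rw [h2, ← Finset.sum_erase_add _ _ (Finset.mem_powerset_self S)] at h1
    refine ⟨w (indS S) - ∑ U ∈ S.powerset.erase S, k U, ?_⟩
    have h5 : ∑ U ∈ S.powerset.erase S, c U = ∑ U ∈ S.powerset.erase S, (k U : ℝ) := by
      refine Finset.sum_congr rfl fun U hU => hk U ?_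
      obtain ⟨hU1, hU2⟩ := Finset.mem_erase.1 hU
      exact (Finset.mem_powerset.1 hU2).ssubset_of_ne hU1
    push_cast
    rw [← h5]
    linarith

/-- the AND monomials are linearly independent -/
theorem coeff_zero {c : Finset ι → ℝ} (h : ∀ x, ∑ S : Finset ι, c S * (mono S x : ℝ) = 0)
    (S : Finset ι) : c S = 0 := by
  induction S using Finset.strongInduction with
  | H S ih =>
    have h1 := h (indS S)
    rw [Finset.sum_eq_single S] at h1
    · rw [mono_indS, if_pos (Finset.Subset.refl _)] at h1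
      simpa using h1
    · intro U _ hU
      rw [mono_indS]
      by_cases h2 : U ⊆ S
      · rw [ih U (h2.ssubset_of_ne hU), zero_mul]
      · rw [if_neg h2]
        simp
    · intro h2
      exact absurd (Finset.mem_univ S) h2

omit [DecidableEq ι] in
/-- sums over the index type of the monomials of degree at most `m` -/
theorem sum_Idx {m : ℕ} (g : Finset ι → ℝ) (hg : ∀ S, m < S.card → g S = 0) :
    ∑ S : Idx ι m, g S.1 = ∑ S : Finset ι, g S := by
  have h1 : ∑ S ∈ Finset.univ.filter (fun S : Finset ι => S.card ≤ m), g S =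
      ∑ S : Idx ι m, g S.1 :=
    Finset.sum_subtype (p := fun S : Finset ι => S.card ≤ m) _ (by simp) g
  rw [← h1, Finset.sum_filter]
  refine Finset.sum_congr rfl fun S _ => ?_
  by_cases h : S.card ≤ m
  · rw [if_pos h]
  · rw [if_neg h, hg S (not_le.1 h)]

end P047F
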