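import Vale.Agent.Lib.P047F.Interface

/-!
# P047 Part I: shared definitions and interface (I.A, I.B, I.C)
-/

open Finset Filter

namespace P047F

/-- `G n m = 3^m (2/3)^n`, an upper bound for (dimension of `V_m`) / `2^n` -/
noncomputable def GG (n m : ℕ) : ℝ := 3 ^ m * (2 / 3 : ℝ) ^ n

/-- integer functions which are close to a function of degree at most `m` -/
def WS (ι : Type) [Fintype ι] [DecidableEq ι] (m : ℕ) (ρ M : ℝ) : Set ((ι → Bool) → ℤ) :=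
  {w | ∃ u : (ι → Bool) → ℝ, DegLe m (fun x => u x + (w x : ℝ)) ∧ (∀ x, |u x| ≤ ρ) ∧
    ∑ x, u x ^ 2 ≤ M}

/-- equivalence modulo integer functions of degree at most `m` -/
def Eqv {ι : Type} [Fintype ι] [DecidableEq ι] (m : ℕ) (w w' : (ι → Bool) → ℤ) : Prop :=
  DegLe m (fun x => (w x : ℝ) - (w' x : ℝ))

/-- the counting property -/
def Cnt (ι : Type) [Fintype ι] [DecidableEq ι] (m : ℕ) (ρ F : ℝ) : Prop :=
  ∀ M : ℝ, 1 ≤ M → ∀ P : Finset ((ι → Bool) → ℤ), (∀ w ∈ P, w ∈ WS ι m ρ M) →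
    (∀ w ∈ P, ∀ w' ∈ P, Eqv m w w' → w = w') → (P.card : ℝ) ≤ Real.exp (F * M)

/-- Part I.A (a): a net for the points of small energy -/
def PartIA_a : Prop :=
  ∃ C : ℝ, 1 ≤ C ∧ ∀ (ι : Type) [Fintype ι] [DecidableEq ι] (m : ℕ) (F : ℝ),
    8 ≤ Fintype.card ι → m ≤ Fintype.card ι → 0 ≤ F → Cnt ι m (1 / 4096) F →
    ∀ M : ℝ, 1 ≤ M → ∃ P : Finset ((ι → Bool) → ℝ),
      (P.card : ℝ) ≤ Real.exp ((C * (Fintype.card ι : ℝ) ^ 2 * GG (Fintype.card ι) m + 8 * F) * M) ∧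
      (∀ θ ∈ P, DegLe m θ) ∧
      ∀ θ : (ι → Bool) → ℝ, DegLe m θ → ∑ x, dz (θ x) ^ 2 ≤ M →
        ∃ θ' ∈ P, ∃ w : (ι → Bool) → ℤ, DegLe m (fun x => (w x : ℝ)) ∧
          ∀ x, |θ x - θ' x - (w x : ℝ)| ≤ 1 / 2048

/-- Part I.A (b): from accuracy `2^(-s) / 4096` to accuracy `1 / 4096` -/
def PartIA_b : Prop :=
  ∃ C : ℝ, 1 ≤ C ∧ ∀ (ι : Type) [Fintype ι] [DecidableEq ι] (m s : ℕ) (F : ℝ),
    8 ≤ Fintype.card ι → m ≤ Fintype.card ι → s ≤ Fintype.card ι → 0 ≤ F →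
    Cnt ι m ((1 / 2) ^ s / 4096) F →
    Cnt ι m (1 / 4096)
      (C * (Fintype.card ι : ℝ) ^ 2 * 4 ^ s * GG (Fintype.card ι) m + 8 * F)

/-- Part I.B: coordinate derivatives -/
def PartIB : Prop :=
  ∀ (ι : Type) [Fintype ι] [DecidableEq ι] (m t K : ℕ) (A0 F : ℝ),
    5 ≤ Fintype.card ι → 1 ≤ t → t ≤ m → m ≤ Fintype.card ι → 1 ≤ A0 →
    (((Fintype.card ι).choose t : ℕ) : ℝ) < A0 ^ K → 0 ≤ F → F < Real.log 2 →
    (∀ (κ : Type) [Fintype κ] [DecidableEq κ], Fintype.card κ + t = Fintype.card ι →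
      Cnt κ (m - t) (1 / 4096) F) →
    Cnt ι m ((1 / 2) ^ (t + 1) / 4096)
      (K * F * 2 ^ t * (64 * (Fintype.card ι : ℝ) * A0 * (2 * (Fintype.card ι : ℝ) + 3) + 8))

/-- Part I.B, base case -/
def PartIB0 : Prop :=
  ∀ (ι : Type) [Fintype ι] [DecidableEq ι] (m s : ℕ), m + 2 ≤ s →
    Cnt ι m ((1 / 2) ^ s / 4096) 0

/-- Part I.C: the recursion -/
def PartIC : Prop :=
  ∀ ε : ℝ, 0 < ε → ∀ᶠ n : ℕ in atTop,
    Cnt (Fin n) (mm n) (1 / 4096) (Real.exp (ε * n) * GG n (mm n))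

end P047F
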